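import Mathlib

/-! Definitions for the P039 statement. -/

namespace Vale.Agent.P039

/-- The graph whose edges are `x — a x`, `x — b x`, `x — c x`. -/
def colouredGraph {V : Type*} (a b c : V → V) : SimpleGraph V :=
  SimpleGraph.fromRel (fun x y => y = a x ∨ y = b x ∨ y = c x)

/-- `y` lies on the alternating cycle of the two edge colours `p`, `q` through `x`. -/
def SameCycle2 {V : Type*} (p q : V → V) (x y : V) : Prop :=
  Relation.ReflTransGen (fun u v => v = p u ∨ v = q u) x y

/-- the `b,c`-cycle through `x` has length four -/
def IsQuad {V : Type*} (b c : V → V) (x : V) : Prop := b (c (b (c x))) = x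

end Vale.Agent.P039
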