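import Vale.Agent.P039.Orbit

/-! A connected 2-factor given by two involutions is a Hamiltonian cycle (P039). -/

namespace Vale.Agent.P039

variable {V : Type*}

theorem exists_walk {G : SimpleGraph V} (g : ℕ → V) (hg : ∀ i, G.Adj (g i) (g (i + 1))) (m : ℕ) :
    ∃ w : G.Walk (g 0) (g m), w.support = (List.range (m + 1)).map g ∧ w.length = m ∧
      ∀ e ∈ w.edges, ∃ i < m, e = s(g i, g (i + 1)) := by
  induction m with
  | zero => exact ⟨SimpleGraph.Walk.nil, by simp, by simp, by simp⟩
  | succ m ih =>
    obtain ⟨w, h1, h2, h3⟩ := ih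
    refine ⟨w.concat (hg m), ?_, by simp [h2], ?_⟩
    · rw [SimpleGraph.Walk.support_concat, h1, List.range_succ (n := m + 1), List.map_append]
      simp
    · intro e he
      rw [SimpleGraph.Walk.edges_concat] at he
      simp only [List.concat_eq_append, List.mem_append, List.mem_singleton] at he
      rcases he with he | he
      · obtain ⟨i, hi, rfl⟩ := h3 e he
        exact ⟨i, by omega, rfl⟩
      · exact ⟨m, by omega, he⟩

/-- the alternating sequence -/
def altSeq (a f : V → V) (x : V) (m : ℕ) : V :=
  if m % 2 = 0 then (fun y => f (a y))^[m / 2] x else a ((fun y => f (a y))^[m / 2] x)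

variable [Fintype V] [DecidableEq V]

theorem isHamiltonian_of_connected {G : SimpleGraph V} {a f : V → V} (ha : Inv a) (hf : Inv f)
    (hne : ∀ x, f x ≠ a x) (hGa : ∀ x, G.Adj x (a x)) (hGf : ∀ x, G.Adj x (f x))
    [Nonempty V] (hconn : ∀ x y, SameCycle2 a f x y) : G.IsHamiltonian := by
  classical
  intro _
  obtain ⟨x⟩ := ‹Nonempty V›
  have hex := exists_period ha hf x
  obtain ⟨hn0, hn⟩ := Nat.find_spec hex
  set n := Nat.find hex with hn'
  have hmin : ∀ m, 0 < m → m < n → (fun y => f (a y))^[m] x ≠ x :=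
    fun m h1 h2 h3 => Nat.find_min hex h2 ⟨h1, h3⟩
  have hn2 : 2 ≤ n := by
    by_contra h
    have h1 : n = 1 := by omega
    rw [h1] at hn
    simp only [Function.iterate_one] at hn
    apply hne x
    conv_lhs => rw [← hn]
    rw [hf.inv]
  set g := altSeq a f x with hg
  have hadj : ∀ i, G.Adj (g i) (g (i + 1)) := by
    intro i
    simp only [hg, altSeq]
    rcases Nat.mod_two_eq_zero_or_one i with h | h
    · rw [if_pos h, if_neg (by omega), show (i + 1) / 2 = i / 2 by omega]
      exact hGa _
    · rw [if_neg (by omega), if_pos (by omega), show (i + 1) / 2 = i / 2 + 1 by omega,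
        Function.iterate_succ_apply']
      exact hGf _
  have hinj : ∀ i, i < 2 * n → ∀ j, j < 2 * n → g i = g j → i = j := by
    intro i hi j hj h
    simp only [hg, altSeq] at h
    rcases Nat.mod_two_eq_zero_or_one i with h1 | h1 <;>
      rcases Nat.mod_two_eq_zero_or_one j with h2 | h2
    · rw [if_pos h1, if_pos h2] at h
      have := iterate_inj ha hf hmin (by omega) (by omega) h
      omega
    · rw [if_pos h1, if_neg (by omega)] at h
      exact absurd h (iterate_ne_odd ha hf hn (by omega) _)
    · rw [if_neg (by omega), if_pos h2] at h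
      exact absurd h.symm (iterate_ne_odd ha hf hn (by omega) _)
    · rw [if_neg (by omega), if_neg (by omega)] at h
      have h' := congrArg a h
      simp only [ha.inv] at h'
      have := iterate_inj ha hf hmin (by omega) (by omega) h'
      omega
  have hsurj : ∀ y, ∃ i < 2 * n, g i = y := by
    intro y
    obtain ⟨j, hj, h | h⟩ := exists_of_sameCycle2 ha hf hn0 hn (hconn x y)
    · refine ⟨2 * j, by omega, ?_⟩
      simp [hg, altSeq, h]
    · refine ⟨2 * j + 1, by omega, ?_⟩
      simp only [hg, altSeq]
      rw [if_neg (by omega), show (2 * j + 1) / 2 = j by omega, h]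
  have hcard : Fintype.card V = 2 * n := by
    rw [← Fintype.card_fin (2 * n)]
    refine (Fintype.card_of_bijective (f := fun i : Fin (2 * n) => g i) ⟨?_, ?_⟩).symm
    · intro i j h
      exact Fin.ext (hinj i i.2 j j.2 h)
    · intro y
      obtain ⟨i, hi, h⟩ := hsurj y
      exact ⟨⟨i, hi⟩, h⟩
  obtain ⟨w, hw1, hw2, hw3⟩ := exists_walk g hadj (2 * n - 1)
  have hlast : G.Adj (g (2 * n - 1)) (g 0) := by
    have h := hadj (2 * n - 1)
    rw [show 2 * n - 1 + 1 = 2 * n by omega] at h
    have h2 : g (2 * n) = g 0 := by simp [hg, altSeq, hn]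
    rwa [h2] at h
  refine ⟨g (2 * n - 1), SimpleGraph.Walk.cons hlast w, ?_⟩
  rw [SimpleGraph.Walk.isHamiltonianCycle_iff_isCycle_and_length_eq,
    SimpleGraph.Walk.cons_isCycle_iff]
  refine ⟨⟨?_, ?_⟩, ?_⟩
  · refine SimpleGraph.Walk.IsPath.mk' ?_
    rw [hw1]
    refine List.Nodup.map_on ?_ List.nodup_range
    intro i hi j hj h
    simp only [List.mem_range] at hi hj
    exact hinj i (by omega) j (by omega) h
  · intro he
    obtain ⟨i, hi, he⟩ := hw3 _ he
    rw [Sym2.eq_iff] at he
    rcases he with ⟨h1, h2⟩ | ⟨h1, h2⟩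
    · have := hinj _ (by omega) i (by omega) h1
      omega
    · have e1 := hinj _ (by omega) (i + 1) (by omega) h1
      have e2 := hinj 0 (by omega) i (by omega) h2
      omega
  · rw [SimpleGraph.Walk.length_cons, hw2, hcard]
    omega

end Vale.Agent.P039
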