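import Vale.Agent.P039.Merge

/-! Connected 2-factor from few non-quadrilateral faces in one colour class (P039). -/

namespace Vale.Agent.P039

variable {V : Type*} [Fintype V] [DecidableEq V] {a b c : V → V}

theorem IsQuad.map_b (hb : Inv b) (hc : Inv c) {x : V} (h : IsQuad b c x) : IsQuad b c (b x) := by
  unfold IsQuad at *
  have h2 : c (b (c (b x))) = x := by
    conv_rhs => rw [← hc.inv x]
    have h' : b (c (b x)) = c x := by
      conv_lhs => rw [← h]
      rw [hb.inv, hc.inv, hb.inv]
    rw [h']
  rw [h2]

theorem IsQuad.map_c (hb : Inv b) (hc : Inv c) {x : V} (h : IsQuad b c x) : IsQuad b c (c x) := by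
  unfold IsQuad at *
  rw [hc.inv]
  conv_lhs => rw [← h]
  rw [hb.inv, hc.inv, hb.inv]

/-- Re-routing along a family of cycles with acyclic incidences keeps every `b`-edge joined. -/
theorem keep_forest (ha : Inv a) (hb : Inv b) (hc : Inv c) (F : Finset V)
    (hG : ∀ T ⊆ F, T.Nonempty → Closed b c T → (∀ x ∈ T, ¬ IsQuad b c x) →
      ∃ A ⊆ T, Closed b c A ∧ ∃ e ∈ A,
        (∀ x ∈ A, ∀ y ∈ A, SameCycle2 a b x y → y = x ∨ y = b x) ∧
        ∀ x ∈ A, ∀ y ∈ T, y ∉ A → SameCycle2 a b x y → x = e ∨ x = b e) :
    ∀ T : Finset V, T ⊆ F → Closed b c T → (∀ x ∈ T, ¬ IsQuad b c x) →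
      ∀ x, SameCycle2 a (sw b c T) x (b x) := by
  intro T
  induction T using Finset.strongInduction with
  | _ T ih =>
    intro hTF hT hnq
    rcases T.eq_empty_or_nonempty with rfl | hne
    · intro x
      have h := SameCycle2.right a (sw b c (∅ : Finset V)) x
      simpa [sw] using h
    obtain ⟨A, hAT, hA, e, heA, hdist, hpriv⟩ := hG T hTF hne hT hnq
    have hU : Closed b c (T \ A) := by
      intro x hx
      simp only [Finset.mem_sdiff] at hx ⊢
      simp only [hA.b_iff hb, hA.c_iff hc, hT.b_iff hb, hT.c_iff hc]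
      exact ⟨hx, hx⟩
    have hlt : T \ A ⊂ T := by
      refine Finset.ssubset_iff_of_subset Finset.sdiff_subset |>.2 ⟨e, hAT heA, ?_⟩
      simp [heA]
    have hkeep := ih _ hlt (Finset.sdiff_subset.trans hTF) hU
      (fun x hx => hnq x (Finset.mem_sdiff.1 hx).1)
    have hf := sw_inv hb hc hU
    have huntouched : ∀ x ∈ A, x ≠ e → x ≠ b e → ∀ y,
        SameCycle2 a (sw b c (T \ A)) x y → SameCycle2 a b x y := by
      intro x hx h1 h2 y h
      induction h with
      | refl => exact SameCycle2.refl _ _ x
      | @tail w v _ hs ihw =>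
        rcases hs with rfl | rfl
        · exact ihw.trans (SameCycle2.left a b _)
        · have hw : w ∉ T \ A := by
            intro hw
            rw [Finset.mem_sdiff] at hw
            rcases hpriv x hx w hw.1 hw.2 ihw with h' | h'
            exacts [h1 h', h2 h']
          rw [show sw b c (T \ A) w = b w by simp only [sw, if_neg hw]]
          exact ihw.trans (SameCycle2.right a b _)
    have hsep : ∀ x ∈ A, ∀ y ∈ A, SameCycle2 a (sw b c (T \ A)) x y → y = x ∨ y = b x := by
      intro x hx y hy h
      by_cases hxe : x = e ∨ x = b e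
      · by_cases hye : y = e ∨ y = b e
        · rcases hxe with rfl | rfl <;> rcases hye with rfl | rfl
          exacts [Or.inl rfl, Or.inr rfl, Or.inr (hb.inv _).symm, Or.inl rfl]
        · simp only [not_or] at hye
          rcases hdist y hy x hx (huntouched y hy hye.1 hye.2 x (h.symm ha hf)) with h' | h'
          · exact Or.inl h'.symm
          · exact Or.inr (by rw [h', hb.inv])
      · simp only [not_or] at hxe
        exact hdist x hx y hy (huntouched x hx hxe.1 hxe.2 y h)
    have hdis : ∀ x ∈ A, x ∉ T \ A := by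
      intro x hx; simp [hx]
    intro x
    have := merge_step ha hb hc hU hdis hsep (hkeep x)
    rwa [Finset.sdiff_union_of_subset hAT] at this

theorem exists_connected (ha : Inv a) (hb : Inv b) (hc : Inv c)
    (hconn : ∀ x y, Relation.ReflTransGen (fun u v => v = a u ∨ v = b u ∨ v = c u) x y)
    (F : Finset V) (hF : Closed b c F)
    (hG : ∀ T ⊆ F, T.Nonempty → Closed b c T → (∀ x ∈ T, ¬ IsQuad b c x) →
      ∃ A ⊆ T, Closed b c A ∧ ∃ e ∈ A,
        (∀ x ∈ A, ∀ y ∈ A, SameCycle2 a b x y → y = x ∨ y = b x) ∧
        ∀ x ∈ A, ∀ y ∈ T, y ∉ A → SameCycle2 a b x y → x = e ∨ x = b e)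
    (hB : ∀ T : Finset V, T.Nonempty → Closed b c T → (∀ x ∈ T, x ∉ F ∧ ¬ IsQuad b c x) →
      ∃ A ⊆ T, Closed b c A ∧ ∃ e ∈ A,
        (∀ x ∈ A, ∀ y ∈ A, SameCycle2 c a x y → y = x ∨ y = c x) ∧
        ∀ x ∈ A, ∀ y ∈ T, y ∉ A → SameCycle2 c a x y → x = e ∨ x = c e) :
    ∃ U : Finset V, Closed b c U ∧ ∀ x y, SameCycle2 a (sw b c U) x y := by
  classical
  have hclA : Closed b c (F.filter (fun x => ¬ IsQuad b c x)) := by
    intro x hx
    simp only [Finset.mem_filter] at hx ⊢
    refine ⟨⟨(hF x hx.1).1, fun h => hx.2 ?_⟩, ⟨(hF x hx.1).2, fun h => hx.2 ?_⟩⟩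
    · simpa only [hb.inv] using IsQuad.map_b hb hc h
    · simpa only [hc.inv] using IsQuad.map_c hb hc h
  set S : Finset (Finset V) := Finset.univ.filter (fun U => Closed b c U ∧
    (∀ x, SameCycle2 a (sw b c U) x (b x)) ∧ (∀ x ∈ F, ¬ IsQuad b c x → x ∈ U)) with hS
  have hne : S.Nonempty := by
    refine ⟨F.filter (fun x => ¬ IsQuad b c x), ?_⟩
    rw [hS, Finset.mem_filter]
    exact ⟨Finset.mem_univ _, hclA,
      keep_forest ha hb hc F hG _ (Finset.filter_subset _ _) hclA
        (fun x hx => (Finset.mem_filter.1 hx).2),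
      fun x h1 h2 => Finset.mem_filter.2 ⟨h1, h2⟩⟩
  obtain ⟨U, hU, hmax⟩ := S.exists_max_image Finset.card hne
  rw [hS, Finset.mem_filter] at hU
  obtain ⟨-, hcl, hkeep, hFU⟩ := hU
  have hf := sw_inv hb hc hcl
  refine ⟨U, hcl, ?_⟩
  have hcU : ∀ x ∈ U, SameCycle2 a (sw b c U) x (c x) := by
    intro x hx
    have := SameCycle2.right a (sw b c U) x
    simpa [sw, hx] using this
  -- quadrilaterals outside `U` lie inside one class
  have hquad : ∀ x, IsQuad b c x → SameCycle2 a (sw b c U) x (c x) := by
    intro x hq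
    by_cases hx : x ∈ U
    · exact hcU x hx
    by_contra hnR
    set A : Finset V := {x, b x, c x, b (c x)} with hA
    have hdis : ∀ y ∈ A, y ∉ U := by
      intro y hy
      simp only [hA, Finset.mem_insert, Finset.mem_singleton] at hy
      rcases hy with rfl | rfl | rfl | rfl <;> simp [hcl.b_iff hb, hcl.c_iff hc, hx]
    have hcb : c (b (c x)) = b x := by
      conv_rhs => rw [← hq]
      rw [hb.inv]
    have hbc : c (b x) = b (c x) := by rw [← hcb, hc.inv]
    have hclA' : Closed b c A := by
      intro y hy
      simp only [hA, Finset.mem_insert, Finset.mem_singleton] at hy ⊢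
      rcases hy with rfl | rfl | rfl | rfl
      · simp
      · simp [hb.inv, hbc]
      · simp [hc.inv]
      · simp [hb.inv, hcb]
    have hsep : ∀ y ∈ A, ∀ z ∈ A, SameCycle2 a (sw b c U) y z → z = y ∨ z = b y := by
      intro y hy z hz h
      simp only [hA, Finset.mem_insert, Finset.mem_singleton] at hy hz
      rcases hy with hy | hy | hy | hy <;> rcases hz with hz | hz | hz | hz <;>
        rw [hy, hz] at h ⊢ <;>
        first
        | exact Or.inl rfl
        | exact Or.inr (hb.inv _).symm
        | exact Or.inr rfl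
        | exact absurd h hnR
        | exact absurd (h.symm ha hf) hnR
        | exact absurd (((hkeep x)).trans h) hnR
        | exact absurd ((hkeep x).trans (h.symm ha hf)) hnR
        | exact absurd (h.trans ((hkeep (c x)).symm ha hf)) hnR
        | exact absurd ((h.symm ha hf).trans ((hkeep (c x)).symm ha hf)) hnR
        | exact absurd ((hkeep x).trans (h.trans ((hkeep (c x)).symm ha hf))) hnR
        | exact absurd ((hkeep x).trans ((h.symm ha hf).trans ((hkeep (c x)).symm ha hf))) hnR
    have hUA : U ∪ A ∈ S := by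
      rw [hS, Finset.mem_filter]
      refine ⟨Finset.mem_univ _, closed_union hcl hclA', fun y => ?_, fun y h1 h2 => ?_⟩
      · exact merge_step ha hb hc hcl hdis hsep (hkeep y)
      · exact Finset.mem_union_left _ (hFU y h1 h2)
    have hlt : U.card < (U ∪ A).card := by
      refine Finset.card_lt_card (Finset.ssubset_iff_of_subset Finset.subset_union_left |>.2
        ⟨x, Finset.mem_union_right _ ?_, hx⟩)
      simp [hA]
    exact absurd (hmax _ hUA) (by omega)
  -- no `c`-edge leaves a class
  have hall : ∀ x, SameCycle2 a (sw b c U) x (c x) := by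
    by_contra hne'
    simp only [not_forall] at hne'
    obtain ⟨x₀, hx₀⟩ := hne'
    have hexc : ∀ z, ¬ SameCycle2 a (sw b c U) z (c z) → z ∉ F ∧ ¬ IsQuad b c z := by
      intro z hz
      have h2 : ¬ IsQuad b c z := fun h => hz (hquad z h)
      exact ⟨fun h => hz (hcU z (hFU z h h2)), h2⟩
    let bad : V → Prop := fun z => ¬ SameCycle2 a (sw b c U) z (c z)
    let T : Finset V := Finset.univ.filter
      (fun x => (x ∉ F ∧ ¬ IsQuad b c x) ∧ ∃ z, SameCycle2 b c x z ∧ bad z)
    have hmemT : ∀ z, bad z → z ∈ T := fun z hz => by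
      simp only [T, Finset.mem_filter, Finset.mem_univ, true_and]
      exact ⟨hexc z hz, z, SameCycle2.refl b c z, hz⟩
    have hT : Closed b c T := by
      intro x hx
      simp only [T, Finset.mem_filter, Finset.mem_univ, true_and] at hx ⊢
      obtain ⟨⟨hxF, hxQ⟩, z, hxz, hz⟩ := hx
      refine ⟨⟨⟨?_, fun h => hxQ ?_⟩, z, ?_, hz⟩, ⟨⟨?_, fun h => hxQ ?_⟩, z, ?_, hz⟩⟩
      · rwa [hF.b_iff hb]
      · simpa only [hb.inv] using IsQuad.map_b hb hc h
      · exact ((SameCycle2.left b c x).symm hb hc).trans hxz
      · rwa [hF.c_iff hc]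
      · simpa only [hc.inv] using IsQuad.map_c hb hc h
      · exact ((SameCycle2.right b c x).symm hb hc).trans hxz
    obtain ⟨A, hAT, hA, e, heA, hdist, hpriv⟩ := hB T ⟨x₀, hmemT x₀ hx₀⟩ hT
      (fun x hx => (Finset.mem_filter.1 hx).2.1)
    have hgood : ∀ z ∈ A, z ≠ e → z ≠ c e → SameCycle2 a (sw b c U) z (c z) := by
      intro z hzA h1 h2
      by_contra hnR
      have hex := exists_period hc ha z
      obtain ⟨hn0, hn⟩ := Nat.find_spec hex
      set n := Nat.find hex with hn'
      have hmin : ∀ m, 0 < m → m < n → (fun y => a (c y))^[m] z ≠ z :=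
        fun m h1 h2 h3 => Nat.find_min hex h2 ⟨h1, h3⟩
      have hother : ∀ j, 0 < j → j < n →
          SameCycle2 a (sw b c U) ((fun y => a (c y))^[j] z)
            (c ((fun y => a (c y))^[j] z)) := by
        intro j hj0 hjn
        by_contra hw
        by_cases hwA : (fun y => a (c y))^[j] z ∈ A
        · rcases hdist z hzA _ hwA (iterate_related hc ha j z).1 with h | h
          · exact hmin j hj0 hjn h
          · exact iterate_ne_first hc ha j z h
        · rcases hpriv z hzA _ (hmemT _ hw) hwA (iterate_related hc ha j z).1 with h | h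
          exacts [h1 h, h2 h]
      have hreach : ∀ j, j + 1 ≤ n →
          SameCycle2 a (sw b c U) (c z) ((fun y => a (c y))^[j + 1] z) := by
        intro j
        induction j with
        | zero => intro _; exact SameCycle2.left a _ (c z)
        | succ j ih =>
          intro hj
          rw [Function.iterate_succ_apply' (fun y => a (c y)) (j + 1) z]
          exact ((ih (by omega)).trans (hother (j + 1) (by omega) (by omega))).trans
            (SameCycle2.left a _ _)
      have := hreach (n - 1) (by omega)
      rw [show n - 1 + 1 = n by omega, hn] at this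
      exact hnR (this.symm ha hf)
    -- the remaining edge is closed up by the rest of its cycle
    have hlast : SameCycle2 a (sw b c U) e (c e) := by
      have hex := exists_period hb hc e
      obtain ⟨hn0, hn⟩ := Nat.find_spec hex
      set n := Nat.find hex with hn'
      have hmin : ∀ m, 0 < m → m < n → (fun y => c (b y))^[m] e ≠ e :=
        fun m h1 h2 h3 => Nat.find_min hex h2 ⟨h1, h3⟩
      have hwalk : ∀ j, j < n → (fun y => c (b y))^[j] e ∈ A ∧
          SameCycle2 a (sw b c U) e (b ((fun y => c (b y))^[j] e)) := by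
        intro j
        induction j with
        | zero => intro _; exact ⟨heA, hkeep e⟩
        | succ j ih =>
          intro hj
          obtain ⟨hmem, hR⟩ := ih (by omega)
          rw [Function.iterate_succ_apply']
          refine ⟨(hA _ (hA _ hmem).1).2, (hR.trans ?_).trans (hkeep _)⟩
          refine hgood _ (hA _ hmem).1 (fun h => ?_) (fun h => ?_)
          · exact iterate_ne_first hb hc j e (by conv_rhs => rw [← h, hb.inv])
          · refine hmin (j + 1) (by omega) hj ?_
            rw [Function.iterate_succ_apply', h, hc.inv]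
      have h1 : (fun y => c (b y))^[n - 1 + 1] e = e := by
        rw [show n - 1 + 1 = n by omega]; exact hn
      rw [Function.iterate_succ_apply'] at h1
      have h2 : b ((fun y => c (b y))^[n - 1] e) = c e := by
        conv_rhs => rw [← h1]
        rw [hc.inv]
      have := (hwalk (n - 1) (by omega)).2
      rwa [h2] at this
    -- no bad edge is left in `A`
    have hAll : ∀ z ∈ A, SameCycle2 a (sw b c U) z (c z) := by
      intro z hz
      by_cases h1 : z = e
      · subst h1; exact hlast
      by_cases h2 : z = c e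
      · subst h2; rw [hc.inv]; exact hlast.symm ha hf
      exact hgood z hz h1 h2
    obtain ⟨-, z, hez, hz⟩ := (Finset.mem_filter.1 (hAT heA)).2
    refine hz (hAll z ?_)
    clear hz
    induction hez with
    | refl => exact heA
    | tail _ hs ih =>
      rcases hs with rfl | rfl
      exacts [(hA _ ih).1, (hA _ ih).2]
  intro x y
  induction hconn x y with
  | refl => exact SameCycle2.refl _ _ x
  | tail _ hs ih =>
    rcases hs with rfl | rfl | rfl
    · exact ih.trans (SameCycle2.left a _ _)
    · exact ih.trans (hkeep _)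
    · exact ih.trans (hall _)

end Vale.Agent.P039
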