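import Vale.Agent.P039.Orbit

/-! Re-routing along bicoloured cycles merges the cycles of a 2-factor (P039). -/

namespace Vale.Agent.P039

variable {V : Type*} [Fintype V] [DecidableEq V]

/-- the second matching of the 2-factor: `c` on the selected vertices, `b` elsewhere -/
def sw (b c : V → V) (U : Finset V) (x : V) : V := if x ∈ U then c x else b x

/-- a set of vertices which is a union of `b,c`-cycles -/
def Closed (b c : V → V) (U : Finset V) : Prop := ∀ x ∈ U, b x ∈ U ∧ c x ∈ U

variable {a b c : V → V}

theorem Closed.b_iff (hb : Inv b) {U : Finset V} (h : Closed b c U) (x : V) :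
    b x ∈ U ↔ x ∈ U :=
  ⟨fun hx => by simpa only [hb.inv] using (h _ hx).1, fun hx => (h x hx).1⟩

theorem Closed.c_iff (hc : Inv c) {U : Finset V} (h : Closed b c U) (x : V) :
    c x ∈ U ↔ x ∈ U :=
  ⟨fun hx => by simpa only [hc.inv] using (h _ hx).2, fun hx => (h x hx).2⟩

theorem sw_inv (hb : Inv b) (hc : Inv c) {U : Finset V} (h : Closed b c U) :
    Inv (sw b c U) := by
  refine ⟨fun x => ?_, fun x => ?_⟩
  · by_cases hx : x ∈ U
    · simp [sw, hx, h.c_iff hc, hc.inv]
    · simp [sw, hx, h.b_iff hb, hb.inv]
  · by_cases hx : x ∈ U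
    · simpa [sw, hx] using hc.free x
    · simpa [sw, hx] using hb.free x

theorem sw_ne (hab : ∀ x, a x ≠ b x) (hca : ∀ x, c x ≠ a x) (U : Finset V) (x : V) :
    sw b c U x ≠ a x := by
  unfold sw
  split
  · exact hca x
  · exact fun h => hab x h.symm

theorem closed_union {U A : Finset V} (hU : Closed b c U) (hA : Closed b c A) :
    Closed b c (U ∪ A) := by
  intro x hx
  rcases Finset.mem_union.1 hx with h | h
  · exact ⟨Finset.mem_union_left _ (hU x h).1, Finset.mem_union_left _ (hU x h).2⟩
  · exact ⟨Finset.mem_union_right _ (hA x h).1, Finset.mem_union_right _ (hA x h).2⟩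

/-- re-routing keeps the two ends of every re-routed edge connected -/
theorem keep_b (ha : Inv a) (hb : Inv b) (hc : Inv c) {U A : Finset V} (hU : Closed b c U)
    (hdis : ∀ x ∈ A, x ∉ U)
    (hsep : ∀ x ∈ A, ∀ y ∈ A, SameCycle2 a (sw b c U) x y → y = x ∨ y = b x) {x : V}
    (hx : x ∈ A) : SameCycle2 a (sw b c (U ∪ A)) x (b x) := by
  classical
  have hf := sw_inv hb hc hU
  have hex := exists_period ha hf x
  obtain ⟨hn0, hn⟩ := Nat.find_spec hex
  set n := Nat.find hex with hn'
  have hmin : ∀ m, 0 < m → m < n → (fun y => sw b c U (a y))^[m] x ≠ x :=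
    fun m h1 h2 h3 => Nat.find_min hex h2 ⟨h1, h3⟩
  have hfx : sw b c U x = b x := by simp [sw, hdis x hx]
  have hlast : a ((fun y => sw b c U (a y))^[n - 1] x) = b x := by
    have h1 : (fun y => sw b c U (a y))^[n - 1 + 1] x = x := by
      rw [show n - 1 + 1 = n by omega]; exact hn
    rw [Function.iterate_succ_apply'] at h1
    rw [← hfx]
    conv_rhs => rw [← h1]
    rw [hf.inv]
  have hpath : ∀ j, j < n →
      SameCycle2 a (sw b c (U ∪ A)) x (a ((fun y => sw b c U (a y))^[j] x)) := by
    intro j
    induction j with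
    | zero => intro _; exact SameCycle2.left a _ x
    | succ j ih =>
      intro hj
      have hA : a ((fun y => sw b c U (a y))^[j] x) ∉ A := by
        intro hmem
        rcases hsep x hx _ hmem (iterate_related ha hf j x).2 with h | h
        · exact iterate_ne_first ha hf j x (by conv_rhs => rw [← h]
                                               rw [ha.inv])
        · refine hmin (j + 1) (by omega) hj ?_
          rw [Function.iterate_succ_apply', h]
          simp [sw, hU.b_iff hb, hdis x hx, hb.inv]
      have hs : sw b c (U ∪ A) (a ((fun y => sw b c U (a y))^[j] x))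
          = (fun y => sw b c U (a y))^[j + 1] x := by
        rw [Function.iterate_succ_apply']
        generalize a ((fun y => sw b c U (a y))^[j] x) = w at hA ⊢
        by_cases h : w ∈ U <;> simp [sw, h, hA]
      have h2 := (ih (by omega)).trans (SameCycle2.right a (sw b c (U ∪ A)) _)
      rw [hs] at h2
      exact h2.trans (SameCycle2.left a _ _)
  have := hpath (n - 1) (by omega)
  rwa [hlast] at this

/-- re-routing along `A` only merges classes, and joins the ends of its `c`-edges -/
theorem merge_step (ha : Inv a) (hb : Inv b) (hc : Inv c) {U A : Finset V}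
    (hU : Closed b c U) (hdis : ∀ x ∈ A, x ∉ U)
    (hsep : ∀ x ∈ A, ∀ y ∈ A, SameCycle2 a (sw b c U) x y → y = x ∨ y = b x) {x y : V}
    (h : SameCycle2 a (sw b c U) x y) : SameCycle2 a (sw b c (U ∪ A)) x y := by
  refine h.lift (fun z => SameCycle2.left a _ z) (fun z => ?_)
  by_cases hz : z ∈ A
  · have : sw b c U z = b z := by simp [sw, hdis z hz]
    rw [this]
    exact keep_b ha hb hc hU hdis hsep hz
  · have : sw b c (U ∪ A) z = sw b c U z := by
      by_cases h : z ∈ U <;> simp [sw, h, hz]
    rw [← this]
    exact SameCycle2.right a _ z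

end Vale.Agent.P039
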