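import Vale.Agent.P039.Defs

/-! Two fixed-point-free involutions: orbits, re-routing, and Hamiltonian cycles (P039). -/

namespace Vale.Agent.P039

variable {V : Type*}

structure Inv (p : V → V) : Prop where
  inv : ∀ x, p (p x) = x
  free : ∀ x, p x ≠ x

theorem SameCycle2.refl (p q : V → V) (x : V) : SameCycle2 p q x x := Relation.ReflTransGen.refl

theorem SameCycle2.left (p q : V → V) (x : V) : SameCycle2 p q x (p x) :=
  Relation.ReflTransGen.single (Or.inl rfl)

theorem SameCycle2.right (p q : V → V) (x : V) : SameCycle2 p q x (q x) :=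
  Relation.ReflTransGen.single (Or.inr rfl)

theorem SameCycle2.trans {p q : V → V} {x y z : V} (h : SameCycle2 p q x y)
    (h' : SameCycle2 p q y z) : SameCycle2 p q x z := Relation.ReflTransGen.trans h h'

theorem SameCycle2.symm {p q : V → V} (hp : Inv p) (hq : Inv q) {x y : V}
    (h : SameCycle2 p q x y) : SameCycle2 p q y x := by
  induction h with
  | refl => exact SameCycle2.refl p q x
  | tail _ hs ih =>
    rcases hs with rfl | rfl
    · refine SameCycle2.trans ?_ ih
      refine Relation.ReflTransGen.single (Or.inl ?_)
      rw [hp.inv]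
    · refine SameCycle2.trans ?_ ih
      refine Relation.ReflTransGen.single (Or.inr ?_)
      rw [hq.inv]

/-- if every generating step stays inside the relation, so does the whole relation -/
theorem SameCycle2.lift {p q p' q' : V → V}
    (hl : ∀ x, SameCycle2 p' q' x (p x)) (hr : ∀ x, SameCycle2 p' q' x (q x)) {x y : V}
    (h : SameCycle2 p q x y) : SameCycle2 p' q' x y := by
  induction h with
  | refl => exact SameCycle2.refl p' q' x
  | tail _ hs ih =>
    rcases hs with rfl | rfl
    · exact ih.trans (hl _)
    · exact ih.trans (hr _)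

section iterate

variable {a f : V → V} (ha : Inv a) (hf : Inv f)

include ha hf

/-- the alternating walk from `x` meets `a x` only after an `a`-step -/
theorem iterate_ne_first : ∀ (j : ℕ) (x : V), (fun y => f (a y))^[j] x ≠ a x
  | 0, x => fun h => ha.free x h.symm
  | 1, x => fun h => hf.free (a x) h
  | j + 2, x => fun h => by
    rw [Function.iterate_succ_apply' (fun y => f (a y)) (j + 1) x,
      Function.iterate_succ_apply (fun y => f (a y)) j x] at h
    have h2 : a ((fun y => f (a y))^[j] (f (a x))) = f (a x) := by
      conv_rhs => rw [← h]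
      rw [hf.inv]
    have h3 : (fun y => f (a y))^[j] (f (a x)) = a (f (a x)) := by
      conv_rhs => rw [← h2]
      rw [ha.inv]
    exact iterate_ne_first j (f (a x)) h3

theorem step_injective : Function.Injective (fun y => f (a y)) := by
  intro u v h
  have := congrArg f h
  simp only [hf.inv] at this
  have := congrArg a this
  simpa only [ha.inv] using this

theorem iterate_related (j : ℕ) (x : V) :
    SameCycle2 a f x ((fun y => f (a y))^[j] x) ∧
      SameCycle2 a f x (a ((fun y => f (a y))^[j] x)) := by
  induction j with
  | zero => exact ⟨SameCycle2.refl a f x, SameCycle2.left a f x⟩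
  | succ j ih =>
    rw [Function.iterate_succ_apply']
    have h : SameCycle2 a f x (f (a ((fun y => f (a y))^[j] x))) :=
      ih.2.trans (SameCycle2.right a f _)
    exact ⟨h, h.trans (SameCycle2.left a f _)⟩

theorem exists_period [Fintype V] (x : V) :
    ∃ n, 0 < n ∧ (fun y => f (a y))^[n] x = x := by
  obtain ⟨i, j, hne, h⟩ :=
    Finite.exists_ne_map_eq_of_infinite (fun n : ℕ => (fun y => f (a y))^[n] x)
  rcases Nat.lt_or_ge i j with hij | hij
  · refine ⟨j - i, by omega, ((step_injective ha hf).iterate i) ?_⟩
    rw [← Function.iterate_add_apply, Nat.add_sub_cancel' hij.le]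
    exact h.symm
  · refine ⟨i - j, by omega, ((step_injective ha hf).iterate j) ?_⟩
    rw [← Function.iterate_add_apply, Nat.add_sub_cancel' hij]
    exact h

omit hf in
theorem iterate_eq_of_eq {x : V} {n : ℕ} (hn : (fun y => f (a y))^[n] x = x) (m : ℕ) :
    (fun y => f (a y))^[m] x = (fun y => f (a y))^[m % n] x := by
  conv_lhs => rw [← Nat.mod_add_div m n, Function.iterate_add_apply]
  congr 1
  induction m / n with
  | zero => simp
  | succ k ih => rw [Nat.mul_succ, Function.iterate_add_apply, hn, ih]

/-- the two orbit sequences exhaust the class of `x` -/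
theorem exists_of_sameCycle2 {x y : V} {n : ℕ} (hn0 : 0 < n)
    (hn : (fun z => f (a z))^[n] x = x) (h : SameCycle2 a f x y) :
    ∃ j < n, y = (fun z => f (a z))^[j] x ∨ y = a ((fun z => f (a z))^[j] x) := by
  induction h with
  | refl => exact ⟨0, hn0, Or.inl rfl⟩
  | tail _ hs ih =>
    obtain ⟨j, hj, rfl | rfl⟩ := ih
    · rcases hs with rfl | rfl
      · exact ⟨j, hj, Or.inr rfl⟩
      · refine ⟨(j + (n - 1)) % n, Nat.mod_lt _ hn0, Or.inr ?_⟩
        rw [← iterate_eq_of_eq ha hn]
        have h1 : (fun z => f (a z))^[j + (n - 1) + 1] x = (fun z => f (a z))^[j] x := by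
          rw [show j + (n - 1) + 1 = j + n by omega, Function.iterate_add_apply, hn]
        rw [Function.iterate_succ_apply'] at h1
        rw [← h1]
        exact hf.inv _
    · rcases hs with rfl | rfl
      · exact ⟨j, hj, Or.inl (ha.inv _)⟩
      · refine ⟨(j + 1) % n, Nat.mod_lt _ hn0, Or.inl ?_⟩
        rw [← iterate_eq_of_eq ha hn, Function.iterate_succ_apply']

/-- minimal period gives injectivity of the even positions -/
theorem iterate_inj {x : V} {n i j : ℕ}
    (hmin : ∀ m, 0 < m → m < n → (fun y => f (a y))^[m] x ≠ x) (hi : i < n) (hj : j < n)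
    (h : (fun y => f (a y))^[i] x = (fun y => f (a y))^[j] x) : i = j := by
  rcases lt_trichotomy i j with hij | hij | hij
  · exfalso
    refine hmin (j - i) (by omega) (by omega) (((step_injective ha hf).iterate i) ?_)
    rw [← Function.iterate_add_apply, Nat.add_sub_cancel' hij.le]
    exact h.symm
  · exact hij
  · exfalso
    refine hmin (i - j) (by omega) (by omega) (((step_injective ha hf).iterate j) ?_)
    rw [← Function.iterate_add_apply, Nat.add_sub_cancel' hij.le]
    exact h

/-- even and odd positions are disjoint -/
theorem iterate_ne_odd {x : V} {n : ℕ} (hn : (fun y => f (a y))^[n] x = x) {i : ℕ} (hi : i ≤ n)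
    (j : ℕ) : (fun y => f (a y))^[i] x ≠ a ((fun y => f (a y))^[j] x) := by
  intro h
  have h1 : (fun y => f (a y))^[n - i + j] ((fun y => f (a y))^[i] x)
      = (fun y => f (a y))^[j] x := by
    rw [← Function.iterate_add_apply, show n - i + j + i = j + n by omega,
      Function.iterate_add_apply, hn]
  apply iterate_ne_first ha hf (n - i + j) ((fun y => f (a y))^[i] x)
  rw [h1, h, ha.inv]

end iterate

end Vale.Agent.P039
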